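import Vale.Agent.P247.Main

/-!
Every hypersymplectic structure on a closed four-manifold is deformed, through hypersymplectic
structures with the third form fixed, to a pointwise orthogonal one.
-/

namespace Vale.Agent.Results.P247.OrthogonalDeformation

open scoped ContDiff
open Vale.Agent.P204 Vale.Agent.P247

theorem result : ∀ (X : Type) [TopologicalSpace X] [T2Space X] [CompactSpace X] [ConnectedSpace X]
    [ChartedSpace E X] [IsManifold modelE ∞ X] (w : Fin 3 → X → BilE), IsHypersymplectic w →
    ∃ W : ℝ → Fin 3 → X → BilE, IsSmoothPath W ∧ W 0 = w ∧ (∀ t, IsHypersymplectic (W t)) ∧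
      IsOrthogonal (W 1) ∧ ∀ t, W t 2 = w 2 :=
  fun _ _ _ _ _ _ _ _ hw => exists_orthogonal_path hw

end Vale.Agent.Results.P247.OrthogonalDeformation
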